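import Crest.Agent.R087.E2def_542

/-!
# Row 87: literal leaves of the heart (E2)

`STOP` (stopping lemma), `SQ` (one-column square function), `E2 ⇐ STOP + SQ` (`ASM2`),
`SQ ⇐ HLlin + EDGE + FLAT + MAIN` (`SQof`), `MAIN ⇐ MART + TB + EDGE + FLAT` (`MAINof`).
Proof text: NOTE by helper542 (row 87, kind TEXT-E2).
-/

set_option autoImplicit false

noncomputable section

open MeasureTheory

namespace Crest.Agent.R087.E2x542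

open Crest.Agent.R087.Sh0x283

/-! ### dyadic intervals -/

/-- dyadic interval `[j 2^-k, (j+1) 2^-k)` -/
def dyI (k : ℕ) (j : ℤ) : Set ℝ := Set.Ico (j * (1 / 2 : ℝ) ^ k) ((j + 1) * (1 / 2 : ℝ) ^ k)

/-- index of the dyadic interval of generation `k` containing `t` -/
def dyx (k : ℕ) (t : ℝ) : ℤ := ⌊t * 2 ^ k⌋

/-- `+1` on the left half, `-1` on the right half of the dyadic interval of generation `k` -/
def sg (k : ℕ) (t : ℝ) : ℝ := if dyx (k + 1) t = 2 * dyx k t then 1 else -1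

/-- tent function -/
def tent (u : ℝ) : ℝ := max (1 - |u|) 0

/-- unit window -/
def win (u : ℝ) : ℝ := if |u| ≤ 1 / 2 then 1 else 0

/-! ### leaf STOP -/

/-- stopping lemma on one dyadic interval: `G` grows along the martingale with increments `± D` -/
def STOP : Prop :=
  ∀ (k0 K : ℕ) (j0 : ℤ) (G D : ℕ → ℤ → ℝ) (w : ℝ → ℝ) (δ : ℝ), k0 ≤ K →
    (∀ k j, 0 ≤ G k j) →
    (∀ k, k0 ≤ k → k < K → ∀ t ∈ dyI k0 j0,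
      G k (dyx k t) + sg k t * D k (dyx k t) ≤ G (k + 1) (dyx (k + 1) t)) →
    Measurable w → (∀ t, 0 ≤ w t) → (∀ t, w t ≤ 1) → 0 < δ → δ ≤ 1 →
    δ * (1 / 2 : ℝ) ^ k0 ≤ ∫ t in dyI k0 j0, w t →
    (G k0 j0) ^ 2 * (1 / 2 : ℝ) ^ k0 ≤
      16 / δ ^ 2 * ∫ t in dyI k0 j0,
        w t * ((G K (dyx K t)) ^ 2 + ∑ k ∈ Finset.Ico k0 K, (D k (dyx k t)) ^ 2)

/-! ### leaf SQ -/

/-- half difference of the averages over the two halves of `J_k(t)` of the tents of the tubes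
`(b_i, m_i)` with `k_i ≤ k`, seen along the line through `(t, b')` with slope `m'` -/
def Dk {n : ℕ} (t : ℝ) (k : ℕ) (b m a : Fin n → ℝ) (kk : Fin n → ℕ) (b' m' : ℝ) : ℝ :=
  2 ^ k * ((∫ s in dyI (k + 1) (2 * dyx k t),
      ∑ i with kk i ≤ k, a i * tent (b' - b i + (s - t) * (m' - m i))) -
    (∫ s in dyI (k + 1) (2 * dyx k t + 1),
      ∑ i with kk i ≤ k, a i * tent (b' - b i + (s - t) * (m' - m i))))

/-- one-column square function estimate -/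
def SQ : Prop :=
  ∃ c : ℝ, 0 < c ∧ ∃ C : ℝ, ∀ u : ℝ → ℝ, (∀ y y', |u y - u y'| ≤ c * |y - y'|) →
    ∀ (t : ℝ) (K n p : ℕ) (b m a : Fin n → ℝ) (kk : Fin n → ℕ)
      (b' m' : Fin p → ℝ) (k' : Fin p → ℕ) (Y : Fin p → Set ℝ),
      (∀ i, 0 ≤ a i) → (∀ q, MeasurableSet (Y q)) → Pairwise (Function.onFun Disjoint Y) →
      (∀ q, ∀ y ∈ Y q, |y - b' q| ≤ 1 / 2 ∧ |u y - m' q| ≤ 2 ^ (k' q)) →
      ∑ q, (volume (Y q)).toReal * ∑ k ∈ Finset.Ico (k' q) K, (Dk t k b m a kk (b' q) (m' q)) ^ 2 ≤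
        C * ∫ y, (∑ i, a i * win (y - b i)) ^ 2

/-- assembly of the heart -/
def ASM2 : Prop := STOP → SQ → E2

/-! ### leaves of SQ -/

/-- discrete Hardy-Littlewood in `L^2`, linearised -/
def HLlin : Prop :=
  ∃ C : ℝ, ∀ (n : ℕ) (b h a : Fin n → ℝ), (∀ i, 0 ≤ a i) → (∀ i, 1 ≤ h i) →
    ∑ i, a i * (h i)⁻¹ * ∑ i', a i' * (if |b i - b i'| ≤ h i then 1 else 0) ≤
      C * ∫ y, (∑ i, a i * win (y - b i)) ^ 2

/-- difference of the averages of the tent over two adjacent intervals -/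
def kap (θ d μ : ℝ) : ℝ :=
  (∫ x in (-θ)..(1 / 2 - θ), tent (d + x * μ)) - ∫ x in (1 / 2 - θ)..(1 - θ), tent (d + x * μ)

/-- main part: the relative slope `M_i` is frozen -/
def MAIN : Prop :=
  ∃ C : ℝ, ∀ (K n : ℕ) (b M a : Fin n → ℝ) (kk : Fin n → ℕ) (θ : ℕ → ℝ),
    (∀ i, 0 ≤ a i) → (∀ k, 0 ≤ θ k ∧ θ k < 1) →
    ∑ k ∈ Finset.range K,
      ∫ y, (∑ i with kk i ≤ k ∧ 4 * 2 ^ k ≤ |M i|, a i * kap (θ k) (y - b i) (M i / 2 ^ k)) ^ 2 ≤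
      C * ∫ y, (∑ i, a i * win (y - b i)) ^ 2

/-- edge terms: unit windows at distance `~ |M_i| 2^-k`, amplitude `2^k / |M_i|` -/
def EDGE : Prop :=
  ∃ C : ℝ, ∀ (K n : ℕ) (b M a : Fin n → ℝ) (x : ℕ → ℝ), (∀ i, 0 ≤ a i) → (∀ k, |x k| ≤ 1) →
    ∑ k ∈ Finset.range K,
      ∫ y, (∑ i with 4 * 2 ^ k ≤ |M i|, a i * (2 ^ k / |M i|) * win (y - b i + x k * (M i / 2 ^ k))) ^ 2 ≤
      C * ∫ y, (∑ i, a i * win (y - b i)) ^ 2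

/-- flat terms: windows of length `~ |M_i| 2^-k`, amplitude `(2^k / |M_i|)^2` -/
def FLAT : Prop :=
  ∃ C : ℝ, ∀ (K n : ℕ) (b M a : Fin n → ℝ), (∀ i, 0 ≤ a i) →
    ∑ k ∈ Finset.range K,
      ∫ y, (∑ i with 4 * 2 ^ k ≤ |M i|,
        a i * (2 ^ k / |M i|) ^ 2 * (if |y - b i| ≤ 2 * (|M i| / 2 ^ k) then 1 else 0)) ^ 2 ≤
      C * ∫ y, (∑ i, a i * win (y - b i)) ^ 2

def SQof : Prop := HLlin → EDGE → FLAT → MAIN → SQ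

/-! ### leaves of MAIN: dyadic expectations in `y` and the operators `T` -/

/-- test functions on the line -/
def Nice1 (f : ℝ → ℝ) : Prop :=
  Measurable f ∧ (∃ M : ℝ, ∀ y, |f y| ≤ M) ∧ (∃ R : ℝ, ∀ y, R < |y| → f y = 0)

/-- dyadic conditional expectation on intervals of length `2^l` -/
def Ex (l : ℤ) (f : ℝ → ℝ) (y : ℝ) : ℝ :=
  ((2 : ℝ) ^ l)⁻¹ * ∫ x in Set.Ico (⌊y / 2 ^ l⌋ * (2 : ℝ) ^ l) ((⌊y / 2 ^ l⌋ + 1) * (2 : ℝ) ^ l), f x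

/-- martingale difference (fine minus coarse) -/
def Dl (l : ℤ) (f : ℝ → ℝ) (y : ℝ) : ℝ := Ex l f y - Ex (l + 1) f y

/-- difference of averages over two adjacent windows of length `|μ|/2` near `y` -/
def Tt (θ μ : ℝ) (f : ℝ → ℝ) (y : ℝ) : ℝ :=
  (∫ x in (-θ)..(1 / 2 - θ), f (y + x * μ)) - ∫ x in (1 / 2 - θ)..(1 - θ), f (y + x * μ)

/-- facts on dyadic expectations -/
def MART : Prop :=
  (∀ l f, Nice1 f → Nice1 (Ex l f)) ∧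
  (∀ l f, Nice1 f → ∫ y, (Ex l f y) ^ 2 ≤ ∫ y, (f y) ^ 2) ∧
  (∀ l f, Nice1 f → ∫ y, (Dl l f y) ^ 2 = (∫ y, (Ex l f y) ^ 2) - ∫ y, (Ex (l + 1) f y) ^ 2) ∧
  (∀ f, Nice1 f → HasSum (fun l : ℤ => ∫ y, (Dl l f y) ^ 2) (∫ y, (f y) ^ 2)) ∧
  (∀ f g, Nice1 f → Nice1 g → HasSum (fun l : ℤ => ∫ y, Dl l f y * g y) (∫ y, f y * g y))

/-- operator bounds: `ρ` is the relative change of the parameter (`T_μ - T_μ'`) -/
def TB : Prop :=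
  ∃ C : ℝ, ∀ (θ μ : ℝ) (l : ℤ) (f : ℝ → ℝ), 0 ≤ θ → θ < 1 → μ ≠ 0 → Nice1 f →
    Nice1 (Tt θ μ f) ∧
    -- coarse input
    (∫ y, (Tt θ μ (Dl l f) y) ^ 2 ≤ C * (|μ| / 2 ^ l) * ∫ y, (Dl l f y) ^ 2) ∧
    -- fine input
    (∫ y, (Tt θ μ (Dl l f) y) ^ 2 ≤ C * ((2 : ℝ) ^ l / |μ|) ^ 2 * ∫ y, (Dl l f y) ^ 2) ∧
    -- coarse output
    (∫ y, (Dl l (Tt θ μ f) y) ^ 2 ≤ C * (|μ| / 2 ^ l) * ∫ y, (f y) ^ 2) ∧
    -- fine output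
    (∫ y, (Dl l (Tt θ μ f) y) ^ 2 ≤ C * ((2 : ℝ) ^ l / |μ|) ^ 2 * ∫ y, (f y) ^ 2) ∧
    -- differences
    (∀ μ' : ℝ, |μ' - μ| ≤ |μ| / 2 →
      (∫ y, (Tt θ μ f y - Tt θ μ' f y) ^ 2 ≤ C * (|μ' - μ| / |μ|) ^ 2 * ∫ y, (f y) ^ 2) ∧
      (|μ| ≤ 2 ^ l → ∫ y, (Tt θ μ (Dl l f) y - Tt θ μ' (Dl l f) y) ^ 2 ≤
        C * (|μ' - μ| / |μ|) ^ 2 * (|μ| / 2 ^ l) * ∫ y, (Dl l f y) ^ 2) ∧
      (|μ| ≤ 2 ^ l → ∫ y, (Dl l (fun x => Tt θ μ f x - Tt θ μ' f x) y) ^ 2 ≤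
        C * (|μ' - μ| / |μ|) ^ 2 * (|μ| / 2 ^ l) * ∫ y, (f y) ^ 2))

def MAINof : Prop := MART → TB → EDGE → FLAT → MAIN

end Crest.Agent.R087.E2x542
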